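import Mathlib
import Vale.Agent.Lib.P110.Autocorr

namespace Vale.Agent.Results.P110.Deviation

open Vale.Agent.Lib.P110

/-- Every real Littlewood polynomial `P` of length `N` has a point `z` on the unit circle with
`| |P(z)|^2 - N | ≥ √(N - 1)`.  Consequently, if `(1 - c) √N ≤ |P(z)| ≤ (1 + c) √N` on the whole
unit circle, then `2 c + c^2 ≥ √(N - 1) / N`. -/
theorem result (N : ℕ) (ε : Fin N → ℤ) (hε : ∀ k, ε k = 1 ∨ ε k = -1) :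
    (∃ z : ℂ, ‖z‖ = 1 ∧
      Real.sqrt ((N : ℝ) - 1) ≤ |‖∑ k : Fin N, (ε k : ℂ) * z ^ (k : ℕ)‖ ^ 2 - N|) ∧
    (∀ c : ℝ, 0 ≤ c →
      (∀ z : ℂ, ‖z‖ = 1 →
        (1 - c) * Real.sqrt N ≤ ‖∑ k : Fin N, (ε k : ℂ) * z ^ (k : ℕ)‖ ∧
        ‖∑ k : Fin N, (ε k : ℂ) * z ^ (k : ℕ)‖ ≤ (1 + c) * Real.sqrt N) →
      Real.sqrt ((N : ℝ) - 1) / N ≤ 2 * c + c ^ 2) := by
  refine ⟨main ε hε, ?_⟩
  intro c hc hflat
  obtain ⟨z, hz, h⟩ := main ε hε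
  obtain ⟨h1, h2⟩ := hflat z hz
  set p := ‖∑ k : Fin N, (ε k : ℂ) * z ^ (k : ℕ)‖ with hp
  have hp0 : 0 ≤ p := norm_nonneg _
  rcases Nat.eq_zero_or_pos N with hN | hN
  · subst hN
    simp
    positivity
  have hNr : (0 : ℝ) < N := by exact_mod_cast hN
  have hs : Real.sqrt N ^ 2 = N := Real.sq_sqrt hNr.le
  have hs0 : 0 ≤ Real.sqrt N := Real.sqrt_nonneg _
  rw [div_le_iff₀ hNr]
  refine h.trans ?_
  rw [abs_le]
  constructor
  · -- N - p^2 ≤ (2c + c^2) N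
    by_cases hc1 : c ≤ 1
    · have : ((1 - c) * Real.sqrt N) ^ 2 ≤ p ^ 2 :=
        pow_le_pow_left₀ (mul_nonneg (by linarith) hs0) h1 2
      rw [mul_pow, hs] at this
      nlinarith
    · have hc1' : 1 < c := not_le.1 hc1
      nlinarith [sq_nonneg p]
  · have : p ^ 2 ≤ ((1 + c) * Real.sqrt N) ^ 2 := pow_le_pow_left₀ hp0 h2 2
    rw [mul_pow, hs] at this
    nlinarith

end Vale.Agent.Results.P110.Deviation
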